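import Vale.Agent.P022.H180.Bridge

/-! P022-CFT: block [APP] of H567/Cft.lean. -/

open NumberField IsDedekindDomain TensorProduct Finset WithZero

namespace Vale.Agent.P022.H180

open Vale.Agent.P022.C

section Real

variable {K : Type*} [Field K] [NumberField K]

theorem wapx_inf (k : InfinitePlace K → K) {ε : ℝ} (hε : 0 < ε) :
    ∃ x : K, ∀ w : InfinitePlace K, w (x - k w) < ε := by
  obtain ⟨x, hx⟩ := (NumberField.InfinitePlace.denseRange_algebraMap_pi K).exists_dist_lt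
    (fun w => WithAbs.toAbs w.1 (k w)) hε
  refine ⟨x, fun w => ?_⟩
  have := (dist_le_pi_dist _ _ w).trans_lt hx
  rw [dist_comm, dist_eq_norm] at this
  exact this

omit [NumberField K] in
theorem mk_real_injective :
    Function.Injective (fun φ : K →+* ℝ => InfinitePlace.mk (Complex.ofRealHom.comp φ)) := by
  intro φ ψ h
  rcases InfinitePlace.mk_eq_iff.1 h with h | h
  · ext x
    have := congrArg (fun f : K →+* ℂ => (f x).re) h
    simpa using this
  · ext x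
    have := congrArg (fun f : K →+* ℂ => (f x).re) h
    simpa using this

theorem real_dense (r : (K →+* ℝ) → ℝ) {ε : ℝ} (hε : 0 < ε) :
    ∃ x : K, ∀ φ : K →+* ℝ, |φ x - r φ| < ε := by
  have hq : ∀ φ : K →+* ℝ, ∃ q : ℚ, |(q : ℝ) - r φ| < ε / 2 := by
    intro φ
    obtain ⟨q, hq⟩ := exists_rat_near (r φ) (half_pos hε)
    exact ⟨q, by rwa [abs_sub_comm]⟩
  choose q hq using hq
  obtain ⟨x, hx⟩ := wapx_inf (fun w => ((Function.extend
    (fun φ : K →+* ℝ => InfinitePlace.mk (Complex.ofRealHom.comp φ)) q 0 w : ℚ) : K)) (half_pos hε)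
  refine ⟨x, fun φ => ?_⟩
  have h1 := hx (InfinitePlace.mk (Complex.ofRealHom.comp φ))
  rw [mk_real_injective.extend_apply, InfinitePlace.apply] at h1
  have h2 : |φ x - q φ| < ε / 2 := by
    have : ‖(Complex.ofRealHom.comp φ) (x - (q φ : K))‖ = |φ x - q φ| := by
      rw [RingHom.comp_apply, Complex.ofRealHom_eq_coe, Complex.norm_real, Real.norm_eq_abs, map_sub,
        map_ratCast]
    rwa [this] at h1
  calc |φ x - r φ| = |(φ x - q φ) + (q φ - r φ)| := by ring_nf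
    _ ≤ |φ x - q φ| + |q φ - r φ| := abs_add_le _ _
    _ < ε := by linarith [hq φ]

theorem exists_exp_mul_lt {g : ℤᵐ⁰} (hg : g ≠ 0) (y : ℤᵐ⁰) :
    ∃ m : ℕ, ∀ s : ℕ, m ≤ s → exp (-(s : ℤ)) * y < g := by
  rcases eq_or_ne y 0 with rfl | hy
  · exact ⟨0, fun s _ => by rw [mul_zero]; exact zero_lt_iff.2 hg⟩
  · obtain ⟨m, hm⟩ := exists_exp_lt (mul_ne_zero hg (inv_ne_zero hy))
    refine ⟨m, fun s hs => ?_⟩
    have : exp (-(s : ℤ)) < g * y⁻¹ := lt_of_le_of_lt (exp_le_exp.2 (by omega)) hm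
    rwa [← div_eq_mul_inv, lt_div_iff₀ (zero_lt_iff.2 hy)] at this

theorem wapx_mixed (T : Finset (HeightOneSpectrum (𝓞 K)))
    (k : ∀ v : HeightOneSpectrum (𝓞 K), v.adicCompletion K)
    (γ : HeightOneSpectrum (𝓞 K) → ℤᵐ⁰) (hγ : ∀ v ∈ T, γ v ≠ 0)
    (r : (K →+* ℝ) → ℝ) {ε : ℝ} (hε : 0 < ε) :
    ∃ x : K, (∀ v ∈ T, Valued.v (algebraMap K (v.adicCompletion K) x - k v) < γ v) ∧
      ∀ φ : K →+* ℝ, |φ x - r φ| < ε := by
  classical
  obtain ⟨x₁, hx₁⟩ := wapx T k γ hγ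
  obtain ⟨x₂, hx₂⟩ := real_dense (fun φ => r φ - φ x₁) (half_pos hε)
  -- the natural number `Q`
  set Q : ℕ := 2 * ∏ v ∈ T, Ideal.absNorm v.asIdeal with hQ
  have hQ0 : ∀ v ∈ T, v.valuation K (Q : K) < 1 := by
    intro v hv
    have h1 : (Q : 𝓞 K) ∈ v.asIdeal := by
      rw [hQ, Nat.cast_mul, Nat.cast_prod]
      refine Ideal.mul_mem_left _ _ ?_
      rw [← Finset.mul_prod_erase T _ hv]
      exact Ideal.mul_mem_right _ _ (Ideal.absNorm_mem _)
    have h2 : (Q : K) = algebraMap (𝓞 K) K (Q : 𝓞 K) := by rw [map_natCast]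
    rw [h2, HeightOneSpectrum.valuation_lt_one_iff_mem]
    exact h1
  have hQ2 : 2 ≤ Q := by
    have : 0 < ∏ v ∈ T, Ideal.absNorm v.asIdeal := by
      refine Finset.prod_pos fun v _ => Nat.pos_of_ne_zero ?_
      rw [Ne, Ideal.absNorm_eq_zero_iff]
      exact v.ne_bot
    omega
  -- choice of the exponent
  have hm : ∀ v : HeightOneSpectrum (𝓞 K), ∃ m : ℕ, v ∈ T → ∀ s : ℕ, m ≤ s →
      exp (-(s : ℤ)) * v.valuation K x₂ < γ v := by
    intro v
    by_cases hv : v ∈ T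
    · obtain ⟨m, hm⟩ := exists_exp_mul_lt (hγ v hv) (v.valuation K x₂)
      exact ⟨m, fun _ => hm⟩
    · exact ⟨0, fun h => absurd h hv⟩
  choose m hm using hm
  obtain ⟨B, hB⟩ : ∃ B : ℕ, ∀ φ : K →+* ℝ, |φ x₂| * (2 / ε) < B := by
    obtain ⟨B, hB⟩ := exists_nat_gt (∑ φ : K →+* ℝ, |φ x₂| * (2 / ε))
    refine ⟨B, fun φ => lt_of_le_of_lt ?_ hB⟩
    exact Finset.single_le_sum (f := fun φ : K →+* ℝ => |φ x₂| * (2 / ε))
      (fun ψ _ => by positivity) (Finset.mem_univ φ)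
  set s : ℕ := max 1 (max B (T.sup m)) with hs
  have hs1 : 1 ≤ s := le_max_left _ _
  have hsB : B ≤ s := (le_max_left _ _).trans (le_max_right _ _)
  have hsm : ∀ v ∈ T, m v ≤ s := fun v hv =>
    (Finset.le_sup hv).trans ((le_max_right _ _).trans (le_max_right _ _))
  set N : ℕ := Q ^ s with hN
  have hNs : s < N := Nat.lt_of_lt_of_le s.lt_two_pow_self (Nat.pow_le_pow_left hQ2 s)
  have hN1 : ((N : K) + 1) ≠ 0 := by exact_mod_cast Nat.succ_ne_zero N
  have hvN : ∀ v ∈ T, v.valuation K (N : K) ≤ exp (-(s : ℤ)) := by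
    intro v hv
    have h1 : v.valuation K (Q : K) ≤ exp (-1 : ℤ) := by
      rcases eq_or_ne (v.valuation K (Q : K)) 0 with h0 | h0
      · rw [h0]; exact zero_le
      · have := hQ0 v hv
        rw [← exp_log h0, ← exp_zero, exp_lt_exp] at this
        rw [← exp_log h0, exp_le_exp]
        omega
    rw [hN, Nat.cast_pow, map_pow]
    calc v.valuation K (Q : K) ^ s ≤ (exp (-1 : ℤ)) ^ s := pow_le_pow_left₀ zero_le h1 s
      _ = exp (-(s : ℤ)) := by rw [← exp_nsmul]; simp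
  have hvN1 : ∀ v ∈ T, v.valuation K ((N : K) + 1) = 1 := by
    intro v hv
    have h1 : v.valuation K (N : K) < v.valuation K 1 := by
      rw [map_one]
      refine lt_of_le_of_lt (hvN v hv) ?_
      rw [← exp_zero, exp_lt_exp]
      omega
    rw [add_comm, Valuation.map_add_eq_of_lt_left _ h1, map_one]
  refine ⟨x₁ + (N : K) / (N + 1) * x₂, fun v hv => ?_, fun φ => ?_⟩
  · have h1 : algebraMap K (v.adicCompletion K) (x₁ + (N : K) / (N + 1) * x₂) - k v =
        (algebraMap K (v.adicCompletion K) x₁ - k v) +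
          algebraMap K (v.adicCompletion K) ((N : K) / (N + 1) * x₂) := by
      rw [map_add]; ring
    rw [h1]
    refine lt_of_le_of_lt (Valuation.map_add _ _ _) (max_lt (hx₁ v hv) ?_)
    have h2 : v.valuation K ((N : K) / (N + 1) * x₂) < γ v := by
      rw [map_mul, map_div₀, hvN1 v hv, div_one]
      exact lt_of_le_of_lt (mul_le_mul_left (hvN v hv) _) (hm v hv s (hsm v hv))
    rwa [← HeightOneSpectrum.valuedAdicCompletion_eq_valuation'] at h2
  · have h1 : φ (x₁ + (N : K) / (N + 1) * x₂) - r φ =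
        (φ x₂ - (r φ - φ x₁)) - φ x₂ / (N + 1) := by
      have : ((N : ℝ) + 1) ≠ 0 := by positivity
      rw [map_add, map_mul, map_div₀, map_add, map_natCast, map_one]
      field_simp
      ring
    rw [h1]
    have h2 : |φ x₂ / (N + 1)| < ε / 2 := by
      rw [abs_div, abs_of_pos (by positivity : (0 : ℝ) < N + 1), div_lt_iff₀ (by positivity)]
      have h3 := hB φ
      have h4 : (B : ℝ) ≤ N + 1 := by
        have : B ≤ N + 1 := by omega
        exact_mod_cast this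
      have h5 : |φ x₂| * (2 / ε) < N + 1 := lt_of_lt_of_le h3 h4
      rw [← lt_div_iff₀ (by positivity)] at h5
      calc |φ x₂| < (N + 1) / (2 / ε) := h5
        _ = ε / 2 * (N + 1) := by field_simp
    calc |φ x₂ - (r φ - φ x₁) - φ x₂ / (N + 1)| ≤ |φ x₂ - (r φ - φ x₁)| + |φ x₂ / (N + 1)| :=
          abs_sub _ _
      _ < ε := by linarith [hx₂ φ]

end Real

section Final

variable {K L : Type} [Field K] [NumberField K] [Field L] [Algebra K L] [FiniteDimensional K L]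
  {ι : Type} [Fintype ι] [DecidableEq ι] (b : Module.Basis ι K L)

/-- the ball of coordinates at a finite place. -/
theorem fin_ball (v : HeightOneSpectrum (𝓞 K)) {β : K} (hβ : β ≠ 0)
    (h : ∃ u : v.adicCompletion K ⊗[K] L,
      Algebra.norm (v.adicCompletion K) u = algebraMap K (v.adicCompletion K) β) (n : ℕ) :
    ∃ (γ : ℤᵐ⁰) (k : ι → v.adicCompletion K), γ ≠ 0 ∧ ∀ x : ι → K,
      (∀ i, Valued.v (algebraMap K (v.adicCompletion K) (x i) - k i) < γ) →
        Algebra.norm K (∑ i, x i • b i) ≠ 0 ∧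
        v.valuation K (β / Algebra.norm K (∑ i, x i • b i) - 1) ≤ exp (-(n : ℤ)) := by
  obtain ⟨u, hu⟩ := h
  rw [norm_tensor b] at hu
  set k : ι → v.adicCompletion K :=
    fun i => (Algebra.TensorProduct.basis (v.adicCompletion K) b).repr u i with hk
  have hg : v.valuation K β * exp (-(n : ℤ)) ≠ 0 :=
    mul_ne_zero ((Valuation.ne_zero_iff _).2 hβ) (exp_ne_zero)
  have hc := (continuous_nf b (v.adicCompletion K)).continuousAt (x := k)
  have hs := hc (ball_mem_nhds v (nf b (v.adicCompletion K) k) hg)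
  rw [Filter.mem_map, nhds_pi, Filter.mem_pi] at hs
  obtain ⟨I, hI, t, ht, hsub⟩ := hs
  choose γ hγ0 hγ using fun i => exists_ball_of_mem_nhds v (k i) (ht i)
  obtain ⟨g, hg0, hg⟩ : ∃ g : ℤᵐ⁰, g ≠ 0 ∧ ∀ i, g ≤ γ i := by
    by_cases he : Nonempty ι
    · obtain ⟨i, hi⟩ := Finite.exists_min γ
      exact ⟨γ i, hγ0 i, hi⟩
    · exact ⟨1, one_ne_zero, fun i => absurd ⟨i⟩ he⟩
  refine ⟨g, k, hg0, fun x hx => ?_⟩
  have := hsub (show (fun i => algebraMap K (v.adicCompletion K) (x i)) ∈ Set.pi I t from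
    fun i _ => hγ i _ (lt_of_lt_of_le (hx i) (hg i)))
  have h2 : Valued.v (nf b (v.adicCompletion K) (fun i => algebraMap K (v.adicCompletion K) (x i))
    - nf b (v.adicCompletion K) k) < v.valuation K β * exp (-(n : ℤ)) := this
  rw [norm_coord, hu, ← map_sub] at h2
  refine close_div _ hβ ?_
  rwa [← HeightOneSpectrum.valuedAdicCompletion_eq_valuation']

/-- the ball of coordinates at a real place. -/
theorem real_ball (φ : K →+* ℝ) {β : K} (hβ : β ≠ 0)
    (h : letI := φ.toAlgebra; ∃ u : ℝ ⊗[K] L, Algebra.norm ℝ u = algebraMap K ℝ β) :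
    ∃ (ε : ℝ) (k : ι → ℝ), 0 < ε ∧ ∀ x : ι → K, (∀ i, |φ (x i) - k i| < ε) →
        Algebra.norm K (∑ i, x i • b i) ≠ 0 ∧ 0 < φ (β / Algebra.norm K (∑ i, x i • b i)) := by
  let _ := φ.toAlgebra
  obtain ⟨u, hu⟩ := h
  rw [norm_tensor b] at hu
  set k : ι → ℝ := fun i => (Algebra.TensorProduct.basis ℝ b).repr u i with hk
  have hβ' : φ β ≠ 0 := (map_ne_zero φ).2 hβ
  have hu' : nf b ℝ k = φ β := hu
  have hc : Continuous fun y : ι → ℝ => φ β * nf b ℝ y := continuous_const.mul (continuous_nf b ℝ)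
  have hs : {y : ι → ℝ | 0 < φ β * nf b ℝ y} ∈ nhds k := by
    refine (isOpen_lt continuous_const hc).mem_nhds ?_
    change 0 < φ β * nf b ℝ k
    rw [hu']
    exact mul_self_pos.2 hβ'
  obtain ⟨ε, hε, hsub⟩ := Metric.mem_nhds_iff.1 hs
  refine ⟨ε / 2, k, half_pos hε, fun x hx => ?_⟩
  have hx' : (fun i => φ (x i)) ∈ Metric.ball k ε := by
    rw [Metric.mem_ball]
    refine lt_of_le_of_lt ((dist_pi_le_iff (half_pos hε).le).2 fun i => ?_) (half_lt_self hε)
    rw [Real.dist_eq]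
    exact (hx i).le
  have h1 : 0 < φ β * nf b ℝ (fun i => algebraMap K ℝ (x i)) := hsub hx'
  rw [norm_coord] at h1
  have h2 : 0 < φ β * φ (Algebra.norm K (∑ i, x i • b i)) := h1
  have h3 : φ (Algebra.norm K (∑ i, x i • b i)) ≠ 0 := fun h0 => by
    rw [h0, mul_zero] at h2
    exact lt_irrefl _ h2
  refine ⟨fun h0 => h3 (by rw [h0, map_zero]), ?_⟩
  rw [map_div₀]
  rcases lt_or_gt_of_ne hβ' with h | h
  · exact div_pos_of_neg_of_neg h (by
      by_contra h4
      push Not at h4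
      nlinarith)
  · exact div_pos h (by
      by_contra h4
      push Not at h4
      nlinarith)

end Final

/-- **[APP]** -/
theorem APP : APPStmt := by
  classical
  intro K L _ _ _ _ _ n σ hσ T hT β hβ hloc M hM
  have := cyc_fd hσ
  let b := Module.finBasis K L
  have hMK : (M : K) ≠ 0 := Nat.cast_ne_zero.2 hM
  -- precision
  have hn : ∀ v : HeightOneSpectrum (𝓞 K), ∃ m : ℕ, exp (-(m : ℤ)) < v.valuation K (M : K) :=
    fun v => exists_exp_lt ((Valuation.ne_zero_iff _).2 hMK)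
  choose m hm using hn
  have h1 : ∀ v : HeightOneSpectrum (𝓞 K), ∃ (γ : ℤᵐ⁰)
      (k : Fin (Module.finrank K L) → v.adicCompletion K), γ ≠ 0 ∧
      (v ∈ T → ∀ x : Fin (Module.finrank K L) → K,
        (∀ i, Valued.v (algebraMap K (v.adicCompletion K) (x i) - k i) < γ) →
        Algebra.norm K (∑ i, x i • b i) ≠ 0 ∧
        v.valuation K (β / Algebra.norm K (∑ i, x i • b i) - 1) ≤ exp (-(m v : ℤ))) := by
    intro v
    by_cases hv : v ∈ T
    · obtain ⟨γ, k, h0, h⟩ := fin_ball b v hβ ((nm_iff hσ _ _).1 (hloc v hv)) (m v)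
      exact ⟨γ, k, h0, fun _ => h⟩
    · exact ⟨1, 0, one_ne_zero, fun h => absurd h hv⟩
  choose γ k hγ0 hγ using h1
  have h2 : ∀ φ : K →+* ℝ, ∃ (ε : ℝ) (r : Fin (Module.finrank K L) → ℝ), 0 < ε ∧
      (NmR σ n φ β → ∀ x : Fin (Module.finrank K L) → K, (∀ i, |φ (x i) - r i| < ε) →
        Algebra.norm K (∑ i, x i • b i) ≠ 0 ∧
          0 < φ (β / Algebra.norm K (∑ i, x i • b i))) := by
    intro φ
    by_cases hφ : NmR σ n φ β
    · obtain ⟨ε, r, h0, h⟩ := real_ball b φ hβ (by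
        let _ := φ.toAlgebra
        exact (nm_iff hσ ℝ β).1 hφ)
      exact ⟨ε, r, h0, fun _ => h⟩
    · exact ⟨1, 0, one_pos, fun h => absurd h hφ⟩
  choose ε r hε0 hε using h2
  obtain ⟨e, he0, he⟩ : ∃ e : ℝ, 0 < e ∧ ∀ φ, e ≤ ε φ := by
    by_cases hne : Nonempty (K →+* ℝ)
    · obtain ⟨φ, hφ⟩ := Finite.exists_min ε
      exact ⟨ε φ, hε0 φ, hφ⟩
    · exact ⟨1, one_pos, fun φ => absurd ⟨φ⟩ hne⟩
  choose x hx hxr using fun i : Fin (Module.finrank K L) =>
    wapx_mixed hT.toFinset (fun v => k v i) γ (fun v _ => hγ0 v) (fun φ => r φ i) he0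
  have h3 : ∀ v ∈ T, Algebra.norm K (∑ i, x i • b i) ≠ 0 ∧
      v.valuation K (β / Algebra.norm K (∑ i, x i • b i) - 1) ≤ exp (-(m v : ℤ)) := fun v hv =>
    hγ v hv x fun i => hx i v (hT.mem_toFinset.2 hv)
  have h4 : ∀ φ : K →+* ℝ, NmR σ n φ β → Algebra.norm K (∑ i, x i • b i) ≠ 0 ∧
      0 < φ (β / Algebra.norm K (∑ i, x i • b i)) := fun φ hφ =>
    hε φ hφ x fun i => lt_of_lt_of_le (hxr i φ) (he φ)
  by_cases hc : Algebra.norm K (∑ i, x i • b i) = 0
  · refine ⟨1, 1, one_ne_zero, by simp, fun v hv => absurd hc (h3 v hv).1,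
      fun φ hφ => absurd hc (h4 φ hφ).1⟩
  · exact ⟨∑ i, x i • b i, Algebra.norm K (∑ i, x i • b i), hc, cyc_norm hσ _,
      fun v hv => (h3 v hv).2.trans (hm v).le, fun φ hφ => (h4 φ hφ).2⟩

end Vale.Agent.P022.H180
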