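import Vale.Agent.P022.H180.CfApx
import Vale.Agent.P022.H567.Cft

/-! P022-CFT: the product of the conjugates is the norm, over every field `R ⊇ K`
(`prod_tw`), and the two forms of local norm agree. -/

open NumberField IsDedekindDomain TensorProduct Finset

namespace Vale.Agent.P022.H180

open Vale.Agent.P022.C

section Glob

variable {K L : Type} [Field K] [Field L] [Algebra K L]

theorem cyc_fd {n : ℕ} {σ : L ≃ₐ[K] L} (h : Cyc K n σ) : FiniteDimensional K L :=
  Module.finite_of_finrank_pos (by rw [h.rank]; exact h.pos)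

theorem cyc_card {n : ℕ} {σ : L ≃ₐ[K] L} (h : Cyc K n σ) : Nat.card (L ≃ₐ[K] L) = n := by
  have := cyc_fd h
  refine le_antisymm ?_ ?_
  · rw [← h.rank, Nat.card_eq_fintype_card]
    exact AlgEquiv.card_le
  · rw [← h.ord]
    exact Nat.le_of_dvd Nat.card_pos (orderOf_dvd_natCard σ)

theorem cyc_gal {n : ℕ} {σ : L ≃ₐ[K] L} (h : Cyc K n σ) : IsGalois K L := by
  have := cyc_fd h
  exact IsGalois.of_card_aut_eq_finrank K L ((cyc_card h).trans h.rank.symm)

theorem cyc_prod {n : ℕ} {σ : L ≃ₐ[K] L} (h : Cyc K n σ) {A : Type*} [CommMonoid A]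
    (f : (L ≃ₐ[K] L) → A) [Fintype (L ≃ₐ[K] L)] :
    ∏ i ∈ range n, f (σ ^ i) = ∏ g : L ≃ₐ[K] L, f g := by
  classical
  have hb : Function.Bijective (fun i : Fin n => σ ^ (i : ℕ)) := by
    rw [Fintype.bijective_iff_injective_and_card]
    refine ⟨fun i j hij => ?_, ?_⟩
    · refine Fin.ext (pow_injOn_Iio_orderOf ?_ ?_ hij)
      · rw [h.ord]; exact i.2
      · rw [h.ord]; exact j.2
    · rw [Fintype.card_fin, ← Nat.card_eq_fintype_card, cyc_card h]
  rw [Finset.prod_range]
  exact hb.prod_comp f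

theorem cyc_norm {n : ℕ} {σ : L ≃ₐ[K] L} (h : Cyc K n σ) (x : L) :
    ∏ i ∈ range n, (σ ^ i) x = algebraMap K L (Algebra.norm K x) := by
  classical
  have := cyc_fd h
  have := cyc_gal h
  rw [Algebra.norm_eq_prod_automorphisms]
  exact cyc_prod h (fun g => g x)

end Glob

section Loc

variable {K L : Type} [Field K] [Infinite K] [Field L] [Algebra K L]

open MvPolynomial in
/-- the generic norm identity. -/
theorem generic {n : ℕ} {σ : L ≃ₐ[K] L} (h : Cyc K n σ) {ι : Type} [Fintype ι] [DecidableEq ι]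
    (b : Module.Basis ι K L) :
    ∏ i ∈ range n, (∑ j, C ((σ ^ i) (b j)) * X j : MvPolynomial ι L) =
      Matrix.det (∑ j, (X j : MvPolynomial ι L) •
        (Algebra.leftMulMatrix b (b j)).map ((C : L →+* MvPolynomial ι L).comp (algebraMap K L))) := by
  refine MvPolynomial.funext_set (fun _ => Set.range (algebraMap K L))
    (fun _ => Set.infinite_range_of_injective (algebraMap K L).injective) fun x hx => ?_
  choose y hy using fun j => hx j (Set.mem_univ j)
  have hx' : x = fun j => algebraMap K L (y j) := by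
    funext j
    exact (hy j).symm
  subst hx'
  have h1 : eval (fun j => algebraMap K L (y j))
      (∏ i ∈ range n, (∑ j, C ((σ ^ i) (b j)) * X j : MvPolynomial ι L)) =
      ∏ i ∈ range n, (σ ^ i) (∑ j, y j • b j) := by
    rw [map_prod]
    refine Finset.prod_congr rfl fun i _ => ?_
    rw [map_sum, map_sum]
    refine Finset.sum_congr rfl fun j _ => ?_
    rw [map_mul, eval_C, eval_X, map_smul, Algebra.smul_def, mul_comm]
  rw [h1, cyc_norm h, ← norm_coord b L, nf, RingHom.map_det, RingHom.mapMatrix_apply]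
  congr 1
  ext r s
  simp only [Matrix.map_apply, Matrix.sum_apply, Matrix.smul_apply,
    smul_eq_mul, map_sum, map_mul, eval_X, RingHom.comp_apply, eval_C]

theorem prod_tw {n : ℕ} {σ : L ≃ₐ[K] L} (h : Cyc K n σ) (R : Type) [Field R] [Algebra K R]
    (y : R ⊗[K] L) :
    ∏ i ∈ range n, tw R (σ ^ i) y = algebraMap R (R ⊗[K] L) (Algebra.norm R y) := by
  classical
  have := cyc_fd h
  let b := Module.finBasis K L
  let bR := Algebra.TensorProduct.basis R b
  let Φ : MvPolynomial (Fin (Module.finrank K L)) L →+* R ⊗[K] L :=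
    MvPolynomial.eval₂Hom (Algebra.TensorProduct.includeRight : L →ₐ[K] R ⊗[K] L).toRingHom
      (fun j => algebraMap R (R ⊗[K] L) (bR.repr y j))
  have hg := congrArg Φ (generic h b)
  have h1 : Φ (∏ i ∈ range n, (∑ j, MvPolynomial.C ((σ ^ i) (b j)) * MvPolynomial.X j)) =
      ∏ i ∈ range n, tw R (σ ^ i) y := by
    rw [map_prod]
    refine Finset.prod_congr rfl fun i _ => ?_
    conv_rhs => rw [← bR.sum_repr y]
    rw [map_sum, map_sum]
    refine Finset.sum_congr rfl fun j _ => ?_
    rw [map_mul, map_smul, Algebra.smul_def, mul_comm]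
    congr 1
    · simp [Φ]
    · simp [Φ, bR, tw]
  rw [← h1, hg, RingHom.map_det, norm_tensor b R y, nf, RingHom.map_det]
  congr 1
  ext r s
  simp [Φ, Matrix.sum_apply, bR]

/-- the two forms of local norm agree. -/
theorem nm_iff {n : ℕ} {σ : L ≃ₐ[K] L} (h : Cyc K n σ) (R : Type) [Field R] [Algebra K R] (a : K) :
    Nm σ n R a ↔ ∃ y : R ⊗[K] L, Algebra.norm R y = algebraMap K R a := by
  have := cyc_fd h
  unfold Nm
  refine exists_congr fun y => ?_
  rw [prod_tw h, IsScalarTower.algebraMap_apply K R (R ⊗[K] L)]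
  exact (FaithfulSMul.algebraMap_injective R (R ⊗[K] L)).eq_iff

end Loc

end Vale.Agent.P022.H180
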