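import Mathlib

/-! P022-CFT, block [APX]: weak approximation of local norms by global norms.
`apx` : an element which is a local norm from `K_v ⊗[K] M` at finitely many finite places `v`
is, at all these places at once, arbitrarily close to a global norm. -/

open IsDedekindDomain TensorProduct WithZero

namespace Vale.Agent.P022.H180

section Wapx

variable {R K : Type*} [CommRing R] [IsDedekindDomain R] [Field K] [Algebra R K]
  [IsFractionRing R K]

theorem exists_exp_lt {g : ℤᵐ⁰} (hg : g ≠ 0) : ∃ n : ℕ, exp (-(n : ℤ)) < g := by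
  refine ⟨(1 - log g).toNat, ?_⟩
  rw [← exp_log hg, exp_lt_exp]
  have := Int.self_le_toNat (1 - log g)
  rw [log_exp]
  omega

/-- weak approximation at finitely many primes of a Dedekind domain, targets in `K`. -/
theorem wapx_K (T : Finset (HeightOneSpectrum R)) (k : HeightOneSpectrum R → K)
    (γ : HeightOneSpectrum R → ℤᵐ⁰) (hγ : ∀ v ∈ T, γ v ≠ 0) :
    ∃ x : K, ∀ v ∈ T, v.valuation K (x - k v) < γ v := by
  classical
  obtain ⟨d, hd⟩ := IsLocalization.exist_integer_multiples_of_finset (nonZeroDivisors R)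
    (T.image k)
  have hd0 : algebraMap R K (d : R) ≠ 0 :=
    IsLocalization.to_map_ne_zero_of_mem_nonZeroDivisors K le_rfl d.2
  have hr : ∀ v : HeightOneSpectrum R, ∃ r : R, v ∈ T → algebraMap R K r = algebraMap R K d * k v := by
    intro v
    by_cases hv : v ∈ T
    · obtain ⟨r, hr⟩ := hd (k v) (Finset.mem_image_of_mem _ hv)
      refine ⟨r, fun _ => ?_⟩
      rw [hr, Algebra.smul_def]
    · exact ⟨0, fun h => absurd h hv⟩
  choose r hr using hr
  have hm : ∀ v : HeightOneSpectrum R, ∃ m : ℕ, v ∈ T →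
      exp (-(m : ℤ)) < γ v * v.valuation K (algebraMap R K d) := by
    intro v
    by_cases hv : v ∈ T
    · have : γ v * v.valuation K (algebraMap R K d) ≠ 0 :=
        mul_ne_zero (hγ v hv) ((Valuation.ne_zero_iff _).2 hd0)
      obtain ⟨m, hm⟩ := exists_exp_lt this
      exact ⟨m, fun _ => hm⟩
    · exact ⟨0, fun h => absurd h hv⟩
  choose m hm using hm
  obtain ⟨y, hy⟩ := IsDedekindDomain.exists_forall_sub_mem_ideal (s := T)
    (fun v : HeightOneSpectrum R => v.asIdeal) m (fun v _ => v.prime)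
    (fun v _ w _ h => fun h' => h (HeightOneSpectrum.ext h')) (fun v => r v)
  refine ⟨algebraMap R K y / algebraMap R K d, fun v hv => ?_⟩
  have h1 : algebraMap R K y / algebraMap R K d - k v =
      algebraMap R K (y - r v) / algebraMap R K d := by
    rw [map_sub, hr v hv]
    field_simp
  rw [h1, map_div₀, div_lt_iff₀ (zero_lt_iff.2 ((Valuation.ne_zero_iff _).2 hd0))]
  refine lt_of_le_of_lt ?_ (hm v hv)
  rw [HeightOneSpectrum.valuation_of_algebraMap, HeightOneSpectrum.intValuation_le_pow_iff_mem]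
  exact hy v hv

theorem ball_mem_nhds (v : HeightOneSpectrum R) (k : v.adicCompletion K) {γ : ℤᵐ⁰} (hγ : γ ≠ 0) :
    {z : v.adicCompletion K | Valued.v (z - k) < γ} ∈ nhds k := by
  obtain ⟨g, hg⟩ := HeightOneSpectrum.valuedAdicCompletion_surjective K v γ
  rw [Valued.mem_nhds]
  have h0 : Valued.v.restrict g ≠ 0 := by
    rw [Ne, Valuation.restrict_eq_zero_iff, hg]; exact hγ
  refine ⟨Units.mk0 _ h0, fun z hz => ?_⟩
  have : Valued.v.restrict (z - k) < Valued.v.restrict g := hz
  rw [Valuation.restrict_lt_iff, hg] at this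
  exact this

theorem exists_ball_of_mem_nhds (v : HeightOneSpectrum R) (k : v.adicCompletion K)
    {s : Set (v.adicCompletion K)} (hs : s ∈ nhds k) :
    ∃ γ : ℤᵐ⁰, γ ≠ 0 ∧ ∀ z, Valued.v (z - k) < γ → z ∈ s := by
  rw [Valued.mem_nhds] at hs
  obtain ⟨γ, hγ⟩ := hs
  refine ⟨MonoidWithZeroHom.ValueGroup₀.embedding γ.val, ?_, fun z hz => hγ ?_⟩
  · intro h
    exact γ.ne_zero ((map_eq_zero _).1 h)
  · exact (Valuation.restrict_lt_iff_lt_embedding _).2 hz

/-- weak approximation at finitely many primes of a Dedekind domain, targets in the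
completions. -/
theorem wapx (T : Finset (HeightOneSpectrum R)) (k : ∀ v : HeightOneSpectrum R, v.adicCompletion K)
    (γ : HeightOneSpectrum R → ℤᵐ⁰) (hγ : ∀ v ∈ T, γ v ≠ 0) :
    ∃ x : K, ∀ v ∈ T, Valued.v (algebraMap K (v.adicCompletion K) x - k v) < γ v := by
  classical
  have h : ∀ v : HeightOneSpectrum R, ∃ x : K, v ∈ T →
      Valued.v (algebraMap K (v.adicCompletion K) x - k v) < γ v := by
    intro v
    by_cases hv : v ∈ T
    · have hd := HeightOneSpectrum.denseRange_algebraMap (R := R) K v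
      obtain ⟨x, hx⟩ := hd.exists_mem_open isOpen_interior
        ⟨k v, mem_interior_iff_mem_nhds.2 (ball_mem_nhds v (k v) (hγ v hv))⟩
      exact ⟨x, fun _ => (interior_subset hx :)⟩
    · exact ⟨0, fun h => absurd h hv⟩
  choose x hx using h
  obtain ⟨y, hy⟩ := wapx_K T x γ hγ
  refine ⟨y, fun v hv => ?_⟩
  have h1 : algebraMap K (v.adicCompletion K) y - k v =
      algebraMap K (v.adicCompletion K) (y - x v) +
        (algebraMap K (v.adicCompletion K) (x v) - k v) := by
    rw [map_sub]; ring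
  rw [h1]
  refine lt_of_le_of_lt (Valuation.map_add _ _ _) (max_lt ?_ (hx v hv))
  have := hy v hv
  rwa [← HeightOneSpectrum.valuedAdicCompletion_eq_valuation'] at this

end Wapx

section Norm

variable {K M : Type*} [Field K] [CommRing M] [Algebra K M]
  {ι : Type*} [Fintype ι] [DecidableEq ι] (b : Module.Basis ι K M)
  (A : Type*) [CommRing A] [Algebra K A]

/-- the norm form in the coordinates of the basis `b`. -/
noncomputable def nf (y : ι → A) : A :=
  Matrix.det (∑ i, y i • (Algebra.leftMulMatrix b (b i)).map (algebraMap K A))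

theorem norm_tensor (u : A ⊗[K] M) :
    Algebra.norm A u = nf b A (fun i => (Algebra.TensorProduct.basis A b).repr u i) := by
  rw [Algebra.norm_eq_matrix_det (Algebra.TensorProduct.basis A b), nf]
  congr 1
  conv_lhs => rw [← (Algebra.TensorProduct.basis A b).sum_repr u, map_sum]
  refine Finset.sum_congr rfl fun i _ => ?_
  rw [map_smul]
  congr 1
  ext j k
  rw [Algebra.leftMulMatrix_eq_repr_mul, Matrix.map_apply, Algebra.leftMulMatrix_eq_repr_mul]
  rw [Algebra.TensorProduct.basis_apply, Algebra.TensorProduct.basis_apply,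
    Algebra.TensorProduct.tmul_mul_tmul, Algebra.TensorProduct.basis_repr_tmul]
  simp

theorem norm_coord (x : ι → K) :
    nf b A (fun i => algebraMap K A (x i)) = algebraMap K A (Algebra.norm K (∑ i, x i • b i)) := by
  rw [Algebra.norm_eq_matrix_det b, nf, RingHom.map_det, map_sum]
  congr 1
  rw [map_sum]
  refine Finset.sum_congr rfl fun i _ => ?_
  ext j k
  rw [map_smul]
  simp

theorem continuous_nf [TopologicalSpace A] [IsTopologicalRing A] : Continuous (nf b A) := by
  unfold nf
  refine Continuous.matrix_det ?_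
  refine continuous_finsetSum _ fun i _ => ?_
  exact (continuous_apply i).smul continuous_const

end Norm

section Apx

variable {R K : Type*} [CommRing R] [IsDedekindDomain R] [Field K] [Algebra R K]
  [IsFractionRing R K] {M : Type*} [Field M] [Algebra K M] [FiniteDimensional K M]

theorem close_div (w : Valuation K ℤᵐ⁰) {a β : K} (hβ : β ≠ 0) {n : ℕ}
    (h : w (a - β) < w β * exp (-(n : ℤ))) : a ≠ 0 ∧ w (β / a - 1) ≤ exp (-(n : ℤ)) := by
  have hβ' : 0 < w β := zero_lt_iff.2 ((Valuation.ne_zero_iff _).2 hβ)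
  have h1 : w (a - β) < w β := by
    refine lt_of_lt_of_le h ?_
    conv_rhs => rw [← mul_one (w β)]
    refine mul_le_mul_right ?_ _
    rw [← exp_zero, exp_le_exp]
    omega
  have h2 : w a = w β := by
    have := Valuation.map_add_eq_of_lt_left w h1
    rwa [add_sub_cancel] at this
  have ha : a ≠ 0 := by
    rw [← Valuation.ne_zero_iff w, h2]; exact hβ'.ne'
  refine ⟨ha, ?_⟩
  have h3 : β / a - 1 = (β - a) / a := by field_simp
  rw [h3, map_div₀, h2, Valuation.map_sub_swap, div_le_iff₀ hβ', mul_comm]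
  exact h.le

/-- **[APX]** -/
theorem apx (T : Finset (HeightOneSpectrum R)) {β : K} (hβ : β ≠ 0)
    (h : ∀ v ∈ T, ∃ u : v.adicCompletion K ⊗[K] M,
      Algebra.norm (v.adicCompletion K) u = algebraMap K (v.adicCompletion K) β) (n : ℕ) :
    ∃ c : M, c ≠ 0 ∧ ∀ v ∈ T, v.valuation K (β / Algebra.norm K c - 1) ≤ exp (-(n : ℤ)) := by
  classical
  rcases T.eq_empty_or_nonempty with rfl | hT
  · exact ⟨1, one_ne_zero, fun v hv => absurd hv (by simp)⟩
  let b := Module.finBasis K M
  have h1 : ∀ v : HeightOneSpectrum R, ∃ (γ : ℤᵐ⁰) (k : Fin (Module.finrank K M) → v.adicCompletion K),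
      γ ≠ 0 ∧ (v ∈ T → ∀ x : Fin (Module.finrank K M) → K,
        (∀ i, Valued.v (algebraMap K (v.adicCompletion K) (x i) - k i) < γ) →
        v.valuation K (Algebra.norm K (∑ i, x i • b i) - β) < v.valuation K β * exp (-(n : ℤ))) := by
    intro v
    by_cases hv : v ∈ T
    swap
    · exact ⟨1, 0, one_ne_zero, fun h => absurd h hv⟩
    obtain ⟨u, hu⟩ := h v hv
    rw [norm_tensor b] at hu
    set k : Fin (Module.finrank K M) → v.adicCompletion K :=
      fun i => (Algebra.TensorProduct.basis (v.adicCompletion K) b).repr u i with hk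
    have hg : v.valuation K β * exp (-(n : ℤ)) ≠ 0 :=
      mul_ne_zero ((Valuation.ne_zero_iff _).2 hβ) (exp_ne_zero)
    have hc := (continuous_nf b (v.adicCompletion K)).continuousAt (x := k)
    have hs := hc (ball_mem_nhds v (nf b (v.adicCompletion K) k) hg)
    rw [Filter.mem_map, nhds_pi, Filter.mem_pi] at hs
    obtain ⟨I, hI, t, ht, hsub⟩ := hs
    choose γ hγ0 hγ using fun i => exists_ball_of_mem_nhds v (k i) (ht i)
    obtain ⟨g, hg0, hg⟩ : ∃ g : ℤᵐ⁰, g ≠ 0 ∧ ∀ i, g ≤ γ i := by
      by_cases he : Nonempty (Fin (Module.finrank K M))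
      · obtain ⟨i, hi⟩ := Finite.exists_min γ
        exact ⟨γ i, hγ0 i, hi⟩
      · exact ⟨1, one_ne_zero, fun i => absurd ⟨i⟩ he⟩
    refine ⟨g, k, hg0, fun _ x hx => ?_⟩
    have := hsub (show (fun i => algebraMap K (v.adicCompletion K) (x i)) ∈ Set.pi I t from
      fun i _ => hγ i _ (lt_of_lt_of_le (hx i) (hg i)))
    have h2 : Valued.v (nf b (v.adicCompletion K) (fun i => algebraMap K (v.adicCompletion K) (x i))
      - nf b (v.adicCompletion K) k) < v.valuation K β * exp (-(n : ℤ)) := this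
    rw [norm_coord, hu, ← map_sub] at h2
    rwa [← HeightOneSpectrum.valuedAdicCompletion_eq_valuation']
  choose γ k hγ0 hγ using h1
  choose x hx using fun i : Fin (Module.finrank K M) => wapx T (fun v => k v i) γ (fun v _ => hγ0 v)
  have h3 : ∀ v ∈ T, Algebra.norm K (∑ i, x i • b i) ≠ 0 ∧
      v.valuation K (β / Algebra.norm K (∑ i, x i • b i) - 1) ≤ exp (-(n : ℤ)) := fun v hv =>
    close_div _ hβ (hγ v hv x fun i => hx i v hv)
  refine ⟨∑ i, x i • b i, ?_, fun v hv => (h3 v hv).2⟩
  obtain ⟨v, hv⟩ := hT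
  intro h0
  refine (h3 v hv).1 ?_
  rw [h0, Algebra.norm_zero]

end Apx

end Vale.Agent.P022.H180
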